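import Crest.Statements.S0170
import Crest.Agent.Lib.BoxFlow.NF

set_option autoImplicit false
open scoped ContDiff
open Crest.AnalysisR.BoxFlow
open Crest Crest.AnalysisR

namespace Crest.Agent.S0170

open Crest.Agent.Lib.BoxFlow Set

lemma sep_of_disjoint (a h a' h' : Fin 3 → ℚ) (hh : ∀ j, 0 < h j) (hh' : ∀ j, 0 < h' j)
    (hd : Disjoint (box a h) (box a' h')) : ∃ j, h j + h' j < |a j - a' j| := by
  by_contra hcon
  simp only [not_exists, not_lt] at hcon
  let x : Fin 3 → ℝ := fun j => (a j : ℝ) + ((h j : ℝ) / ((h j : ℝ) + h' j)) * ((a' j : ℝ) - a j)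
  have hpos : ∀ j, (0 : ℝ) < h j := fun j => by exact_mod_cast hh j
  have hpos' : ∀ j, (0 : ℝ) < h' j := fun j => by exact_mod_cast hh' j
  have hc : ∀ j, |(a' j : ℝ) - a j| ≤ (h j : ℝ) + h' j := by
    intro j
    have h1 := hcon j
    rw [abs_sub_comm] at h1
    exact_mod_cast h1
  have m1 : x ∈ box a h := by
    intro j
    have h0 : (0 : ℝ) < (h j : ℝ) + h' j := add_pos (hpos j) (hpos' j)
    simp only [x, add_sub_cancel_left, abs_mul, abs_div, abs_of_pos (hpos j), abs_of_pos h0]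
    rw [div_mul_eq_mul_div, div_le_iff₀ h0]
    exact mul_le_mul_of_nonneg_left (hc j) (hpos j).le
  have m2 : x ∈ box a' h' := by
    intro j
    have h0 : (0 : ℝ) < (h j : ℝ) + h' j := add_pos (hpos j) (hpos' j)
    have e : x j - (a' j : ℝ) = - (((h' j : ℝ) / ((h j : ℝ) + h' j)) * ((a' j : ℝ) - a j)) := by
      simp only [x]
      field_simp
      ring
    rw [e, abs_neg, abs_mul, abs_div, abs_of_pos (hpos' j), abs_of_pos h0,
      div_mul_eq_mul_div, div_le_iff₀ h0]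
    exact mul_le_mul_of_nonneg_left (hc j) (hpos' j).le
  exact Set.disjoint_left.1 hd m1 m2

lemma exists_dilation {n : ℕ} (a h : Fin n → Fin 3 → ℚ) (hh : ∀ i j, 0 < h i j)
    (hsep : ∀ i i', i ≠ i' → ∃ j, h i j + h i' j < |a i j - a i' j|) :
    ∃ ε : ℚ, 0 < ε ∧ ∀ i i', i ≠ i' → ∃ j, (1 + ε) * h i j + (1 + ε) * h i' j < |a i j - a i' j| := by
  obtain ⟨ε, hε, hε'⟩ := exists_uniform_gap (ι := {p : Fin n × Fin n // p.1 ≠ p.2})
    (fun p ε => ∃ j, (1 + ε) * h p.1.1 j + (1 + ε) * h p.1.2 j < |a p.1.1 j - a p.1.2 j|)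
    (fun p δ δ' _ hle ⟨j, hj⟩ => ⟨j, by
      have h1 := hh p.1.1 j
      have h2 := hh p.1.2 j
      nlinarith⟩)
    (fun p => by
      obtain ⟨j, hj⟩ := hsep p.1.1 p.1.2 p.2
      have h1 := hh p.1.1 j
      have h2 := hh p.1.2 j
      have h0 : 0 < h p.1.1 j + h p.1.2 j := by linarith
      refine ⟨(|a p.1.1 j - a p.1.2 j| - (h p.1.1 j + h p.1.2 j)) / (2 * (h p.1.1 j + h p.1.2 j)), ?_, j, ?_⟩
      · apply div_pos <;> linarith
      · have e : (1 + (|a p.1.1 j - a p.1.2 j| - (h p.1.1 j + h p.1.2 j)) / (2 * (h p.1.1 j + h p.1.2 j)))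
            * h p.1.1 j + (1 + (|a p.1.1 j - a p.1.2 j| - (h p.1.1 j + h p.1.2 j)) / (2 * (h p.1.1 j + h p.1.2 j)))
            * h p.1.2 j = (h p.1.1 j + h p.1.2 j) + (|a p.1.1 j - a p.1.2 j| - (h p.1.1 j + h p.1.2 j)) / 2 := by
          field_simp
        rw [e]
        linarith)
  exact ⟨ε, hε, fun i i' hii => hε' ⟨(i, i'), hii⟩⟩

/-- Finitely many pairwise disjoint rational boxes in 3-space are carried onto disjoint target boxes, each a translated determinant-one positive diagonal rescaling of its source, by the time-one flow of a smooth, compactly supported, effective, divergence-free velocity field active only in [1/4,3/4]. The flow equals the prescribed affine map on a neighbourhood of each source box. Effective: computably approximable mixed derivatives at rational points and computable global derivative bounds. -/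
theorem result
    (n : ℕ) (a b h k : Fin n → Fin 3 → ℚ)
    (hh : ∀ i j, 0 < h i j) (hk : ∀ i j, 0 < k i j)
    (ha : Pairwise fun i i' => Disjoint (box (a i) (h i)) (box (a i') (h i')))
    (hb : Pairwise fun i i' => Disjoint (box (b i) (k i)) (box (b i') (k i')))
    (hvol : ∀ i, ∏ j : Fin 3, k i j / h i j = 1) :
    ∃ (U : Field) (Φ : ℝ → (Fin 3 → ℝ) → (Fin 3 → ℝ)),
      ContDiff ℝ ∞ U ∧ HasCompactSupport U ∧ Effective U ∧
      (∀ p : ℝ × (Fin 3 → ℝ), p.1 ∉ Set.Icc (1 / 4 : ℝ) (3 / 4) → U p = 0) ∧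
      (∀ p : ℝ × (Fin 3 → ℝ), spaceDiv U p = 0) ∧ IsFlow U Φ ∧
      ∀ i : Fin n, ∃ O : Set (Fin 3 → ℝ), IsOpen O ∧ box (a i) (h i) ⊆ O ∧
        ∀ x ∈ O, Φ 1 x = fun j => (b i j : ℝ) + ((k i j / h i j : ℚ) : ℝ) * (x j - (a i j : ℝ)) := by
  have hsa : ∀ i i', i ≠ i' → ∃ j, h i j + h i' j < |a i j - a i' j| := fun i i' hii =>
    sep_of_disjoint _ _ _ _ (hh i) (hh i') (ha hii)
  have hsb : ∀ i i', i ≠ i' → ∃ j, k i j + k i' j < |b i j - b i' j| := fun i i' hii =>
    sep_of_disjoint _ _ _ _ (hk i) (hk i') (hb hii)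
  obtain ⟨ε1, hε1, hd1⟩ := exists_dilation a h hh hsa
  obtain ⟨ε2, hε2, hd2⟩ := exists_dilation b k hk hsb
  set ε : ℚ := min ε1 ε2 with hε
  have hε0 : 0 < ε := lt_min hε1 hε2
  have hd1' : ∀ i i', i ≠ i' → ∃ j, (1 + ε) * h i j + (1 + ε) * h i' j < |a i j - a i' j| := by
    intro i i' hii
    obtain ⟨j, hj⟩ := hd1 i i' hii
    refine ⟨j, lt_of_le_of_lt ?_ hj⟩
    have h1 := hh i j
    have h2 := hh i' j
    have h3 : ε ≤ ε1 := min_le_left _ _
    nlinarith
  have hd2' : ∀ i i', i ≠ i' → ∃ j, (1 + ε) * k i j + (1 + ε) * k i' j < |b i j - b i' j| := by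
    intro i i' hii
    obtain ⟨j, hj⟩ := hd2 i i' hii
    refine ⟨j, lt_of_le_of_lt ?_ hj⟩
    have h1 := hk i j
    have h2 := hk i' j
    have h3 : ε ≤ ε2 := min_le_right _ _
    nlinarith
  let h2 : Fin n → Fin 3 → ℚ := fun i j => (1 + ε) * h i j
  let k2 : Fin n → Fin 3 → ℚ := fun i j => (1 + ε) * k i j
  have hh2 : ∀ i j, 0 < h2 i j := fun i j => mul_pos (by linarith) (hh i j)
  have hk2 : ∀ i j, 0 < k2 i j := fun i j => mul_pos (by linarith) (hk i j)
  have hvol' : ∀ i, h2 i 0 * h2 i 1 * h2 i 2 = k2 i 0 * k2 i 1 * k2 i 2 := by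
    intro i
    have h1 := hvol i
    rw [Fin.prod_univ_three] at h1
    have h0 := (hh i 0).ne'
    have h3 := (hh i 1).ne'
    have h4 := (hh i 2).ne'
    field_simp at h1
    simp only [h2, k2]
    rw [show (1 + ε) * h i 0 * ((1 + ε) * h i 1) * ((1 + ε) * h i 2) =
      (1 + ε) ^ 3 * (h i 0 * h i 1 * h i 2) by ring,
      show (1 + ε) * k i 0 * ((1 + ε) * k i 1) * ((1 + ε) * k i 2) =
      (1 + ε) ^ 3 * (k i 0 * k i 1 * k i 2) by ring, h1]
  obtain ⟨U, hU, hcar⟩ := reach_main a h2 b k2 hh2 hk2 hd1' hd2' hvol'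
  have hcs := hU.compactSupport
  obtain ⟨Φ, hΦ⟩ := exists_flow hU.smooth hcs hU.time
  refine ⟨U, Φ, hU.smooth, hcs, hU.eff.effective, hU.time, hU.div, hΦ, fun i => ?_⟩
  refine ⟨{x | ∀ j, |x j - (a i j : ℝ)| < (h2 i j : ℝ)}, ?_, ?_, ?_⟩
  · simp only [Set.ofPred_forall]
    exact isOpen_iInter_of_finite fun j => isOpen_lt (by fun_prop) continuous_const
  · intro x hx j
    have h1 : |x j - (a i j : ℝ)| ≤ h i j := hx j
    have h3 : (h i j : ℝ) < h2 i j := by
      have : h i j < h2 i j := by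
        simp only [h2]
        nlinarith [hh i j]
      exact_mod_cast this
    linarith
  · intro x hx
    have hxbox : x ∈ box (a i) (h2 i) := fun j => (hx j).le
    obtain ⟨γ, g0, g1, g2⟩ := hcar i x hxbox
    have hflow := flow_unique hU.smooth hcs hΦ x γ (g0 0 (by norm_num)) g2 1
    rw [hflow, g1 1 (by norm_num)]
    funext j
    have e : k2 i j / h2 i j = k i j / h i j := by
      simp only [h2, k2]
      have h0 : (1 + ε) ≠ 0 := by linarith
      rw [mul_div_mul_left _ _ h0]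
    simp only [aff, e]

end Crest.Agent.S0170
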